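import Vale.Agent.P192.Thin

/-!
Actions moving boundedly along one permutation have finite image.
-/

namespace Vale.Agent.P192

open Set Filter

universe v w

variable {G : Type v} [Group G] [Group.IsFinitelyPresented G]
  (hv : ∀ N : Subgroup G, N.FiniteIndex → ∀ χ : N →* Multiplicative ℤ, χ = 1)

omit [Group.IsFinitelyPresented G] in
/-- A set closed under generators and their inverses is closed under the group. -/
lemma closed_of_gen {Y : Type*} {S : Set G} (hS : Subgroup.closure S = ⊤)
    (f : G →* Equiv.Perm Y) (O : Set Y)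
    (h : ∀ s ∈ S, ∀ y ∈ O, f s y ∈ O ∧ f s⁻¹ y ∈ O) (g : G) : ∀ y ∈ O, f g y ∈ O := by
  suffices H : ∀ g : G, ∀ y ∈ O, f g y ∈ O ∧ f g⁻¹ y ∈ O from fun y hy => (H g y hy).1
  intro g
  have hg : g ∈ Subgroup.closure S := hS ▸ Subgroup.mem_top g
  induction hg using Subgroup.closure_induction with
  | mem s hs => exact h s hs
  | one => intro y hy; simpa using hy
  | mul a b _ _ ha hb =>
    intro y hy
    refine ⟨?_, ?_⟩
    · rw [map_mul, Equiv.Perm.mul_apply]; exact (ha _ (hb y hy).1).1
    · rw [mul_inv_rev, map_mul, Equiv.Perm.mul_apply]; exact (hb _ (ha y hy).2).2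
  | inv a _ ha =>
    intro y hy
    exact ⟨(ha y hy).2, by rw [inv_inv]; exact (ha y hy).1⟩

include hv in
/-- The orbits of a bounded action have bounded size. -/
theorem orbits_bounded {Y : Type w} (ψ : Equiv.Perm Y) (f : G →* Equiv.Perm Y)
    (hf : ∀ g, ∃ d : ℕ, ∀ y, ∃ k : ℤ, k.natAbs ≤ d ∧ f g y = (ψ ^ k) y) :
    ∃ N : ℕ, ∀ y : Y, ∃ O : Finset Y, O.card ≤ N ∧ ∀ g, f g y ∈ O := by
  classical
  by_contra hno
  push Not at hno
  choose ys hys using hno
  obtain ⟨S, hS⟩ : ∃ S : Finset G, Subgroup.closure (S : Set G) = ⊤ := by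
    obtain ⟨n, φ, hφ, -⟩ := Group.IsFinitelyPresented.out (G := G)
    refine ⟨Finset.univ.image fun i : Fin n => φ (FreeGroup.of i), ?_⟩
    rw [Finset.coe_image, Finset.coe_univ, Set.image_univ, ← MonoidHom.range_eq_top.2 hφ,
      MonoidHom.range_eq_map, ← FreeGroup.closure_range_of (Fin n), MonoidHom.map_closure,
      ← Set.range_comp]
    rfl
  let U : Ultrafilter ℕ := hyperfilter ℕ
  let H : Subgroup G :=
    { carrier := {g | ∀ᶠ m in (U : Filter ℕ), f g (ys m) = ys m}
      one_mem' := Filter.Eventually.of_forall fun m => by simp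
      mul_mem' := by
        intro a b ha hb
        filter_upwards [ha, hb] with m ha hb
        rw [map_mul, Equiv.Perm.mul_apply, hb, ha]
      inv_mem' := by
        intro a ha
        filter_upwards [ha] with m ha
        rw [map_inv, Equiv.Perm.inv_eq_iff_eq]
        exact ha.symm }
  have hmem : ∀ a b : G, (a : G ⧸ H) = b ↔ ∀ᶠ m in (U : Filter ℕ), f a (ys m) = f b (ys m) := by
    intro a b
    rw [QuotientGroup.eq]
    show (∀ᶠ m in (U : Filter ℕ), f (a⁻¹ * b) (ys m) = ys m) ↔ _
    refine Filter.eventually_congr (Filter.Eventually.of_forall fun m => ?_)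
    rw [map_mul, map_inv, Equiv.Perm.mul_apply, Equiv.Perm.inv_eq_iff_eq, eq_comm]
  by_cases hfin : Finite (G ⧸ H)
  · let := Fintype.ofFinite (G ⧸ H)
    let R : Finset G := (Finset.univ : Finset (G ⧸ H)).image Quotient.out
    have hR : ∀ g : G, ∃ r ∈ R, (r : G ⧸ H) = g := fun g =>
      ⟨(g : G ⧸ H).out, Finset.mem_image_of_mem _ (Finset.mem_univ _), QuotientGroup.out_eq' _⟩
    choose rep hrep hrep' using hR
    have hev : ∀ᶠ m in (U : Filter ℕ), f (rep 1) (ys m) = ys m ∧
        (∀ s ∈ S, ∀ r ∈ R, f (s * r) (ys m) = f (rep (s * r)) (ys m) ∧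
          f (s⁻¹ * r) (ys m) = f (rep (s⁻¹ * r)) (ys m)) ∧ R.card ≤ m := by
      refine Filter.Eventually.and ?_ (Filter.Eventually.and ?_ ?_)
      · filter_upwards [(hmem _ _).1 (hrep' 1)] with m hm
        simpa using hm
      · refine (S.finite_toSet.eventually_all).2 fun s _ => ?_
        refine (R.finite_toSet.eventually_all).2 fun r _ => ?_
        exact ((hmem _ _).1 (hrep' (s * r)).symm).and ((hmem _ _).1 (hrep' (s⁻¹ * r)).symm)
      · exact (Filter.eventually_ge_atTop R.card).filter_mono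
          (Nat.hyperfilter_le_atTop)
    obtain ⟨m, h1, h2, h3⟩ := hev.exists
    let O : Finset Y := R.image fun r => f r (ys m)
    obtain ⟨g, hg⟩ := hys m O (Finset.card_image_le.trans h3)
    refine hg ?_
    refine Finset.mem_coe.1 (closed_of_gen hS f (O : Set Y) ?_ g (ys m)
      (Finset.mem_coe.2 (Finset.mem_image.2 ⟨rep 1, hrep 1, h1⟩)))
    intro s hs y hy
    obtain ⟨r, hr, rfl⟩ := Finset.mem_image.1 (Finset.mem_coe.1 hy)
    refine ⟨Finset.mem_coe.2 (Finset.mem_image.2 ⟨rep (s * r), hrep _, ?_⟩),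
      Finset.mem_coe.2 (Finset.mem_image.2 ⟨rep (s⁻¹ * r), hrep _, ?_⟩)⟩
    · rw [← (h2 s hs r hr).1, map_mul, Equiv.Perm.mul_apply]
    · rw [← (h2 s hs r hr).2, map_mul, Equiv.Perm.mul_apply]
  · choose d hd using hf
    let E : ℕ := S.sup d + S.sup fun s => d s⁻¹
    let T : Finset G := S ∪ S.image fun s => s⁻¹
    let W : ℕ → Finset G := fun k =>
      Nat.rec {1} (fun _ Wk => Wk ∪ (T ×ˢ Wk).image fun q => q.1 * q.2) k
    have hW : ∀ k, W (k + 1) = W k ∪ (T ×ˢ W k).image fun q => q.1 * q.2 := fun k => rfl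
    have hdT : ∀ t ∈ T, d t ≤ E := by
      intro t ht
      rcases Finset.mem_union.1 ht with ht | ht
      · exact (Finset.le_sup ht).trans (Nat.le_add_right _ _)
      · obtain ⟨s, hs, rfl⟩ := Finset.mem_image.1 ht
        exact (Finset.le_sup (f := fun s => d s⁻¹) hs).trans (Nat.le_add_left _ _)
    have hWd : ∀ k, ∀ g ∈ W k, ∀ y, ∃ j : ℤ, j.natAbs ≤ k * E ∧ f g y = (ψ ^ j) y := by
      intro k
      induction k with
      | zero =>
        intro g hg y
        rw [show g = 1 from Finset.mem_singleton.1 hg]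
        exact ⟨0, by simp, by simp⟩
      | succ k ih =>
        intro g hg y
        rw [hW, Finset.mem_union, Finset.mem_image] at hg
        rcases hg with hg | ⟨⟨t, g'⟩, hq, rfl⟩
        · obtain ⟨j, hj, hj'⟩ := ih g hg y
          exact ⟨j, hj.trans (Nat.mul_le_mul_right E (Nat.le_succ k)), hj'⟩
        · obtain ⟨ht, hg'⟩ := Finset.mem_product.1 hq
          obtain ⟨j, hj, hj'⟩ := ih g' hg' y
          obtain ⟨i, hi, hi'⟩ := hd t (f g' y)
          refine ⟨i + j, ?_, ?_⟩
          · rw [add_one_mul]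
            have := Int.natAbs_add_le i j
            have := hdT t ht
            omega
          · simp only [map_mul, Equiv.Perm.mul_apply, hi']
            rw [hj', zpow_add, Equiv.Perm.mul_apply]
    let ball : ℕ → Finset (G ⧸ H) := fun k => (W k).image fun g : G => (g : G ⧸ H)
    have hlin : ∀ N, ∃ k, N ≤ k ∧ (ball k).card ≤ (2 * E + 1) * k := by
      intro N
      refine ⟨N + 1, Nat.le_succ N, ?_⟩
      have hev : ∀ᶠ m in (U : Filter ℕ), ∀ a ∈ W (N + 1), ∀ b ∈ W (N + 1),
          f a (ys m) = f b (ys m) → (a : G ⧸ H) = b := by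
        refine ((W (N + 1)).finite_toSet.eventually_all).2 fun a _ => ?_
        refine ((W (N + 1)).finite_toSet.eventually_all).2 fun b _ => ?_
        by_cases hab : (a : G ⧸ H) = b
        · exact Filter.Eventually.of_forall fun m _ => hab
        · have h' : ∀ᶠ m in (U : Filter ℕ), ¬ f a (ys m) = f b (ys m) :=
            Ultrafilter.eventually_not.2 fun h' => hab ((hmem a b).2 h')
          exact h'.mono fun m hm h'' => absurd h'' hm
      obtain ⟨m, hm⟩ := hev.exists
      let K := ((N + 1) * E : ℕ)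
      have hcard : (ball (N + 1)).card ≤ ((W (N + 1)).image fun g => f g (ys m)).card := by
        refine Finset.card_le_card_of_surjOn (f := fun y =>
          if h : ∃ g ∈ W (N + 1), f g (ys m) = y then (h.choose : G ⧸ H) else (1 : G)) ?_
        intro q hq
        obtain ⟨g, hg, rfl⟩ := Finset.mem_image.1 (Finset.mem_coe.1 hq)
        refine ⟨f g (ys m), Finset.mem_coe.2 (Finset.mem_image_of_mem _ hg), ?_⟩
        have hex : ∃ g' ∈ W (N + 1), f g' (ys m) = f g (ys m) := ⟨g, hg, rfl⟩
        simp only [dif_pos hex]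
        exact hm _ hex.choose_spec.1 _ hg hex.choose_spec.2
      refine hcard.trans ((Finset.card_le_card (t := (Finset.Icc (-(K : ℤ)) (K : ℤ)).image
        fun j : ℤ => (ψ ^ j) (ys m)) ?_).trans (Finset.card_image_le.trans ?_))
      · intro y hy
        obtain ⟨g, hg, rfl⟩ := Finset.mem_image.1 hy
        obtain ⟨j, hj, hj'⟩ := hWd (N + 1) g hg (ys m)
        simp only [Finset.mem_image, Finset.mem_Icc]
        exact ⟨j, by omega, hj'.symm⟩
      · rw [Int.card_Icc]
        have : (2 * E + 1) * (N + 1) = 2 * K + (N + 1) := by simp only [K]; ring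
        omega
    refine hfin (finite_of_thin hv S hS (2 * (2 * E + 1)) fun A =>
      thin_of_linear S hS ((1 : G) : G ⧸ H) (2 * E + 1) ball ?_ ?_ hlin A)
    · exact Finset.mem_image_of_mem _ (Finset.mem_singleton_self 1)
    · intro k q hq
      obtain ⟨g, hg, rfl⟩ := Finset.mem_image.1 hq
      refine ⟨Finset.mem_image_of_mem _ (by rw [hW]; exact Finset.mem_union_left _ hg),
        fun s hs => ?_⟩
      have key : ∀ t ∈ T, t • (g : G ⧸ H) ∈ ball (k + 1) := fun t ht => by
        refine Finset.mem_image.2 ⟨t * g, ?_, rfl⟩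
        rw [hW]
        exact Finset.mem_union_right _
          (Finset.mem_image.2 ⟨(t, g), Finset.mem_product.2 ⟨ht, hg⟩, rfl⟩)
      exact ⟨key s (Finset.mem_union_left _ hs),
        key s⁻¹ (Finset.mem_union_right _ (Finset.mem_image_of_mem _ hs))⟩

include hv in
/-- Bounded actions have finite image. -/
theorem finite_range_of_bounded {Y : Type w} (ψ : Equiv.Perm Y) (f : G →* Equiv.Perm Y)
    (hf : ∀ g, ∃ d : ℕ, ∀ y, ∃ k : ℤ, k.natAbs ≤ d ∧ f g y = (ψ ^ k) y) :
    (Set.range f).Finite := by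
  classical
  obtain ⟨N, hN⟩ := orbits_bounded hv ψ f hf
  obtain ⟨n, φ, hφ, -⟩ := Group.IsFinitelyPresented.out (G := G)
  let ι := Σ m : Fin (N + 1), (G →* Equiv.Perm (Fin m))
  have hfin : ∀ m : ℕ, Finite (G →* Equiv.Perm (Fin m)) := fun m =>
    Finite.of_injective (fun χ : G →* Equiv.Perm (Fin m) => fun i => χ (φ (FreeGroup.of i)))
      fun χ χ' h => by
        refine (MonoidHom.cancel_right hφ).1 (FreeGroup.ext_hom _ _ fun i => ?_)
        exact congrFun h i
  have : Finite ι := inferInstance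
  let K : Subgroup G := ⨅ χ : ι, χ.2.ker
  have hK : K.FiniteIndex := by
    refine Subgroup.finiteIndex_iInf fun χ => ?_
    rw [Subgroup.finiteIndex_iff, Subgroup.index_ker]
    exact Nat.card_ne_zero.2 ⟨inferInstance, inferInstance⟩
  have hKtriv : ∀ g ∈ K, f g = 1 := by
    intro g hg
    refine Equiv.ext fun y => ?_
    obtain ⟨O, hO, hyO⟩ := hN y
    let : MulAction G Y := MulAction.compHom Y f
    have hfinO : Finite (MulAction.orbit G y) := by
      refine (O.finite_toSet.subset ?_).to_subtype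
      rintro _ ⟨g', rfl⟩
      exact hyO g'
    let : Fintype (MulAction.orbit G y) := Fintype.ofFinite _
    have hle : Fintype.card (MulAction.orbit G y) < N + 1 := by
      refine Nat.lt_succ_of_le (le_trans ?_ hO)
      rw [← Set.toFinset_card]
      refine Finset.card_le_card ?_
      intro z hz
      obtain ⟨g', rfl⟩ := Set.mem_toFinset.1 hz
      exact hyO g'
    let χ : G →* Equiv.Perm (Fin (Fintype.card (MulAction.orbit G y))) :=
      ((Fintype.equivFin _).permCongrHom.toMonoidHom).comp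
        (MulAction.toPermHom G (MulAction.orbit G y))
    have h1 : χ g = 1 := Subgroup.mem_iInf.1 hg ⟨⟨_, hle⟩, χ⟩
    have h2 : MulAction.toPermHom G (MulAction.orbit G y) g = 1 := by
      refine (Fintype.equivFin _).permCongrHom.injective ?_
      rw [map_one]
      exact h1
    have h3 := congrArg Subtype.val (Equiv.Perm.ext_iff.1 h2 ⟨y, MulAction.mem_orbit_self y⟩)
    exact h3
  have := hK
  refine (Set.finite_range fun q : G ⧸ K => f q.out).subset ?_
  rintro _ ⟨g, rfl⟩
  refine ⟨(g : G ⧸ K), ?_⟩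
  obtain ⟨k, hk⟩ := QuotientGroup.mk_out_eq_mul K g
  show f (g : G ⧸ K).out = f g
  rw [hk, map_mul, hKtriv k k.2, mul_one]

end Vale.Agent.P192
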