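import Vale.Agent.P196.Orbit

/-!
Gluing isomorphic collars into an action on a periodic chain of finite pieces.
-/

namespace Vale.Agent.P192

open Set Vale.Agent.P196

variable {G : Type*} [Group G] {X : Type*} [MulAction G X] {n : ℕ}
  {φ : FreeGroup (Fin n) →* G} {D : Finset G} {F₀ F₁ : Set X} {u v : X → X}

/-- The change of level when a point is pushed back into the middle part. -/
noncomputable def lvl (F₀ F₁ : Set X) (z : X) : ℤ := by
  classical
  exact if z ∈ F₀ then -1 else if z ∈ F₁ then 0 else 1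

lemma lvl_self {z : X} (h₁ : z ∈ F₁) (h₀ : z ∉ F₀) : lvl F₀ F₁ z = 0 := by
  simp [lvl, h₁, h₀]

lemma lvl_step (h : Gluing φ D F₀ F₁ u v) (a : Fin n × Bool) {z : X}
    (hin : z ∈ F₀ → z ∈ collar D F₀ ∧ letter φ a • z ∈ collar D F₀)
    (hout : z ∉ F₁ → z ∈ collar D F₁ ∧ letter φ a • z ∈ collar D F₁) :
    lvl F₀ F₁ z + lvl F₀ F₁ (letter φ a • reduce F₀ F₁ u v z)
      = lvl F₀ F₁ (letter φ a • z) := by
  by_cases h₀ : z ∈ F₀
  · obtain ⟨hc, hc'⟩ := hin h₀
    have hu := h.u_mem _ hc'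
    have e : reduce F₀ F₁ u v z = u z := by simp [reduce, h₀]
    have ez : lvl F₀ F₁ z = -1 := by simp [lvl, h₀]
    rw [e, ez, h.u_smul a z hc hc']
    by_cases h' : letter φ a • z ∈ F₀
    · rw [lvl_self (hu.2.1.2 h') (h.disj _ hu.1)]
      simp [lvl, h']
    · have hne : u (letter φ a • z) ∉ F₁ := fun hh => h' (hu.2.1.1 hh)
      have e₁ : lvl F₀ F₁ (u (letter φ a • z)) = 1 := by simp [lvl, h.disj _ hu.1, hne]
      rw [e₁, lvl_self (h.sub' hc') h']
      norm_num
  · by_cases h₁ : z ∈ F₁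
    · rw [reduce_self h₁ h₀, lvl_self h₁ h₀, zero_add]
    · obtain ⟨hc, hc'⟩ := hout h₁
      have hv := h.v_mem _ hc'
      have e : reduce F₀ F₁ u v z = v z := by simp [reduce, h₀, h₁]
      have ez : lvl F₀ F₁ z = 1 := by simp [lvl, h₀, h₁]
      rw [e, ez, h.v_smul a z hc hc']
      by_cases h' : letter φ a • z ∈ F₁
      · have hin' : v (letter φ a • z) ∈ F₀ := hv.2.1.2 h'
        have e₁ : lvl F₀ F₁ (v (letter φ a • z)) = -1 := by simp [lvl, hin']
        rw [e₁, lvl_self h' (h.disj _ hc')]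
        norm_num
      · have hne : v (letter φ a • z) ∉ F₀ := fun hh => h' (hv.2.1.1 hh)
        rw [lvl_self (h.sub' hv.1) hne]
        simp [lvl, h.disj _ hc', h']

/-- The glued action of a generator on the chain of middle parts. -/
noncomputable def stepZ (φ : FreeGroup (Fin n) →* G) (u v : X → X) (F₀ F₁ : Set X)
    (a : Fin n × Bool) (q : X × ℤ) : X × ℤ :=
  (step φ u v F₀ F₁ a q.1, q.2 + lvl F₀ F₁ (letter φ a • q.1))

lemma word_eqZ (h : Gluing φ D F₀ F₁ u v) {r : ℕ}
    (hD : ∀ w : List (Fin n × Bool), w.length ≤ r → φ (FreeGroup.mk w) ∈ D)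
    {y : X} (hy : y ∈ F₁ \ F₀) (l : ℤ) :
    ∀ w : List (Fin n × Bool), w.length ≤ r →
      w.foldr (stepZ φ u v F₀ F₁) (y, l)
        = (reduce F₀ F₁ u v (φ (FreeGroup.mk w) • y),
            l + lvl F₀ F₁ (φ (FreeGroup.mk w) • y)) := by
  intro w
  induction w with
  | nil =>
    intro _
    rw [← FreeGroup.one_eq_mk, map_one, one_smul, reduce_self hy.1 hy.2, lvl_self hy.1 hy.2,
      add_zero]
    rfl
  | cons a w ih =>
    intro hw
    have hw' : w.length ≤ r := by
      simp only [List.length_cons] at hw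
      omega
    rw [List.foldr_cons, ih hw', word_cons, mul_smul]
    have inv_mem : ∀ w' : List (Fin n × Bool), w'.length ≤ r → (φ (FreeGroup.mk w'))⁻¹ ∈ D := by
      intro w' hl
      rw [← map_inv, FreeGroup.inv_mk]
      exact hD _ (by rw [FreeGroup.invRev_length]; exact hl)
    set z := φ (FreeGroup.mk w) • y with hz
    have hback : (φ (FreeGroup.mk w))⁻¹ • z = y := inv_smul_smul _ _
    have hback' : (φ (FreeGroup.mk (a :: w)))⁻¹ • (letter φ a • z) = y := by
      rw [hz, ← mul_smul (letter φ a), ← word_cons, inv_smul_smul]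
    have hl' : (letter φ a)⁻¹ ∈ D :=
      inv_mem [a] (by simp only [List.length_cons, List.length_nil] at hw ⊢; omega)
    have crossed : ∀ (F : Set X), ¬(y ∈ F ↔ z ∈ F) →
        z ∈ collar D F ∧ letter φ a • z ∈ collar D F := by
      intro F hF
      refine ⟨⟨_, inv_mem w hw', by rwa [hback]⟩, ?_⟩
      by_cases haz : letter φ a • z ∈ F ↔ z ∈ F
      · refine ⟨_, inv_mem (a :: w) hw, ?_⟩
        rw [hback']
        exact fun hh => hF (hh.trans haz)
      · refine ⟨_, hl', ?_⟩
        rw [inv_smul_smul]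
        exact fun hh => haz hh.symm
    have c₀ : z ∈ F₀ → z ∈ collar D F₀ ∧ letter φ a • z ∈ collar D F₀ :=
      fun hz₀ => crossed _ fun hh => hy.2 (hh.2 hz₀)
    have c₁ : z ∉ F₁ → z ∈ collar D F₁ ∧ letter φ a • z ∈ collar D F₁ :=
      fun hz₁ => crossed _ fun hh => hz₁ (hh.1 hy.1)
    have h1 := h.reduce_step a c₀ c₁
    have h2 := lvl_step h a c₀ c₁
    simp only [stepZ, step, h1]
    rw [add_assoc, h2]

/-- A point outside `F` and the points it reaches without entering `F`. -/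
inductive Reach (φ : FreeGroup (Fin n) →* G) (F : Set X) : X → X → Prop
  | refl (x : X) : Reach φ F x x
  | move (x y : X) (a : Fin n × Bool) : letter φ a • x ∉ F → Reach φ F (letter φ a • x) y →
      Reach φ F x y

lemma Reach.trans {F : Set X} {x y z : X} (h : Reach φ F x y) (h' : Reach φ F y z) :
    Reach φ F x z := by
  induction h with
  | refl => exact h'
  | move x y a ha _ ih => exact Reach.move x z a ha (ih h')

lemma Reach.not_mem {F : Set X} {x y : X} (h : Reach φ F x y) (hx : x ∉ F) : y ∉ F := by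
  induction h with
  | refl => exact hx
  | move x y a ha _ ih => exact ih ha

lemma Reach.symm {F : Set X} {x y : X} (h : Reach φ F x y) (hx : x ∉ F) : Reach φ F y x := by
  induction h with
  | refl => exact Reach.refl _
  | move x y a ha _ ih =>
    refine (ih ha).trans ?_
    have e : letter φ (a.1, !a.2) • letter φ a • x = x := by rw [letter_flip, inv_smul_smul]
    exact Reach.move _ _ (a.1, !a.2) (by rwa [e]) (by rw [e]; exact Reach.refl _)

/-- The chain action, its equivariance under shifts, and its unboundedness. -/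
lemma exists_chain (h : Gluing φ D F₀ F₁ u v) {r : ℕ} (hr : 2 ≤ r)
    (hD : ∀ w : List (Fin n × Bool), w.length ≤ r → φ (FreeGroup.mk w) ∈ D) :
    ∃ Φ : FreeGroup (Fin n) →* Equiv.Perm (↥(F₁ \ F₀) × ℤ),
      (∀ x : FreeGroup (Fin n), x.toWord.length ≤ r → φ x = 1 → Φ x = 1) ∧
      (∀ x y l, Φ x (y, l) = ((Φ x (y, 0)).1, (Φ x (y, 0)).2 + l)) ∧
      ∀ (y : ↥(F₁ \ F₀)) (l : ℤ) (z : X), Reach φ F₀ (y : X) z → z ∉ F₁ →
        ∃ x, (Φ x (y, l)).2 = l + 1 := by
  have hD₁ : ∀ a, letter φ a ∈ D := fun a =>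
    hD [a] (by simp only [List.length_cons, List.length_nil]; omega)
  have cancel : ∀ a (y : ↥(F₁ \ F₀)) (l : ℤ),
      stepZ φ u v F₀ F₁ (a.1, !a.2) (stepZ φ u v F₀ F₁ a ((y : X), l)) = ((y : X), l) := by
    intro a y l
    have := word_eqZ h hD y.2 l [(a.1, !a.2), a]
      (by simp only [List.length_cons, List.length_nil]; omega)
    rw [word_cons, ← letter, letter_flip, inv_mul_cancel, one_smul,
      reduce_self y.2.1 y.2.2, lvl_self y.2.1 y.2.2, add_zero] at this
    simpa using this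
  let mv : Fin n × Bool → ↥(F₁ \ F₀) × ℤ → ↥(F₁ \ F₀) × ℤ := fun a q =>
    (⟨_, h.step_mem hD₁ a q.1.2⟩, q.2 + lvl F₀ F₁ (letter φ a • (q.1 : X)))
  let raw : ↥(F₁ \ F₀) × ℤ → X × ℤ := fun q => ((q.1 : X), q.2)
  have raw_inj : Function.Injective raw := fun p q hpq => by
    simp only [raw, Prod.mk.injEq] at hpq
    exact Prod.ext (Subtype.ext hpq.1) hpq.2
  have raw_mv : ∀ a q, raw (mv a q) = stepZ φ u v F₀ F₁ a (raw q) := fun _ _ => rfl
  let σ : Fin n → Equiv.Perm (↥(F₁ \ F₀) × ℤ) := fun i =>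
    { toFun := mv (i, true)
      invFun := mv (i, false)
      left_inv := fun q => raw_inj (by rw [raw_mv, raw_mv]; exact cancel (i, true) q.1 q.2)
      right_inv := fun q => raw_inj (by rw [raw_mv, raw_mv]; exact cancel (i, false) q.1 q.2) }
  let Φ := FreeGroup.lift σ
  have one : ∀ (a : Fin n × Bool) q, Φ (FreeGroup.mk [a]) q = mv a q := by
    rintro ⟨i, _ | _⟩ q <;> simp [Φ, FreeGroup.lift_mk] <;> rfl
  have cons : ∀ (a : Fin n × Bool) (w : List (Fin n × Bool)) q,
      Φ (FreeGroup.mk (a :: w)) q = mv a (Φ (FreeGroup.mk w) q) := by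
    intro a w q
    rw [show FreeGroup.mk (a :: w) = FreeGroup.mk [a] * FreeGroup.mk w by
      rw [FreeGroup.mul_mk]; rfl, map_mul, Equiv.Perm.mul_apply, one]
  have all : ∀ (w : List (Fin n × Bool)) q,
      raw (Φ (FreeGroup.mk w) q) = w.foldr (stepZ φ u v F₀ F₁) (raw q) := by
    intro w
    induction w with
    | nil =>
      intro q
      rw [← FreeGroup.one_eq_mk, map_one]
      rfl
    | cons a w ih =>
      intro q
      rw [cons, raw_mv, ih]
      rfl
  refine ⟨Φ, fun x hx h1 => Equiv.ext fun q => raw_inj ?_, fun x y l => ?_, ?_⟩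
  · have e := all x.toWord q
    rw [FreeGroup.mk_toWord, word_eqZ h hD q.1.2 q.2 _ hx, FreeGroup.mk_toWord, h1, one_smul,
      reduce_self q.1.2.1 q.1.2.2, lvl_self q.1.2.1 q.1.2.2, add_zero] at e
    simpa [raw] using e
  · rw [← FreeGroup.mk_toWord (x := x)]
    induction x.toWord with
    | nil => simp [← FreeGroup.one_eq_mk]
    | cons a w ih =>
      rw [cons, cons, ih]
      simp only [mv, Prod.mk.injEq, true_and]
      omega
  · suffices H : ∀ y₀ z, Reach φ F₀ y₀ z → z ∉ F₁ → ∀ hy : y₀ ∈ F₁ \ F₀, ∀ l,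
        ∃ x, (Φ x (⟨y₀, hy⟩, l)).2 = l + 1 from fun y l z hz hz₁ => H _ z hz hz₁ y.2 l
    intro y₀ z hz
    induction hz with
    | refl => intro hz₁ hy; exact absurd hy.1 hz₁
    | move y₀ z a ha _ ih =>
      intro hz₁ hy l
      by_cases h₁ : letter φ a • y₀ ∈ F₁
      · obtain ⟨x, hx⟩ := ih hz₁ ⟨h₁, ha⟩ l
        refine ⟨x * FreeGroup.mk [a], ?_⟩
        have e : mv a (⟨y₀, hy⟩, l) = (⟨_, h₁, ha⟩, l) := raw_inj (by
          simp [raw, mv, step, reduce_self h₁ ha, lvl_self h₁ ha])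
        rw [map_mul, Equiv.Perm.mul_apply, one, e, hx]
      · refine ⟨FreeGroup.mk [a], ?_⟩
        rw [one]
        simp [mv, lvl, ha, h₁]

/-- Filling the bounded holes of `F` does not enlarge its boundary. -/
lemma fill [MulAction.IsPretransitive G X] (hφ : Function.Surjective φ) (F : Finset X)
    (hF : F.Nonempty) :
    ∃ F' : Finset X, F ⊆ F' ∧
      {x ∈ (F' : Set X) | ∃ a, letter φ a • x ∉ F'} ⊆
        {x ∈ (F : Set X) | ∃ a, letter φ a • x ∉ F} ∧
      ∀ x ∉ F', {y | Reach φ (F' : Set X) x y}.Infinite := by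
  classical
  obtain ⟨f₀, hf₀⟩ := hF
  have near : ∀ x ∉ F, ∃ y ∈ F, ∃ a, letter φ a • y ∉ F ∧
      Reach φ (F : Set X) x (letter φ a • y) := by
    intro x hx
    suffices H : ∀ (w : List (Fin n × Bool)) x, x ∉ F → φ (FreeGroup.mk w) • f₀ = x →
        ∃ y ∈ F, ∃ a, letter φ a • y ∉ F ∧ Reach φ (F : Set X) x (letter φ a • y) by
      obtain ⟨g, hg⟩ := MulAction.exists_smul_eq G f₀ x
      obtain ⟨t, rfl⟩ := hφ g
      exact H t.toWord x hx (by rwa [FreeGroup.mk_toWord])
    intro w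
    induction w with
    | nil =>
      intro x hx h
      rw [← FreeGroup.one_eq_mk, map_one, one_smul] at h
      exact absurd (h ▸ hf₀) hx
    | cons a w ih =>
      intro x hx h
      rw [word_cons, mul_smul] at h
      by_cases hw : φ (FreeGroup.mk w) • f₀ ∈ F
      · exact ⟨_, hw, a, by rwa [h], by rw [h]; exact Reach.refl _⟩
      · obtain ⟨y, hy, b, hb, hr⟩ := ih _ hw rfl
        refine ⟨y, hy, b, hb, Reach.trans ?_ hr⟩
        subst h
        exact Reach.symm (Reach.move _ _ a hx (Reach.refl _)) hw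
  let N : Finset X := (F ×ˢ (Finset.univ : Finset (Fin n × Bool))).image
    fun q => letter φ q.2 • q.1
  let H : Set X := {x | x ∉ F ∧ {y | Reach φ (F : Set X) x y}.Finite}
  have hH : H.Finite := by
    have hfin : (⋃ z ∈ (N : Set X) ∩ H, {y | Reach φ (F : Set X) z y}).Finite :=
      (N.finite_toSet.inter_of_left _).biUnion fun z hz => hz.2.2
    refine hfin.subset fun x hx => ?_
    obtain ⟨y, hy, a, hay, hr⟩ := near x hx.1
    refine Set.mem_biUnion (x := letter φ a • y) ⟨?_, hay, ?_⟩ (hr.symm hx.1)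
    · exact Finset.mem_coe.2 (Finset.mem_image.2
        ⟨(y, a), Finset.mem_product.2 ⟨hy, Finset.mem_univ _⟩, rfl⟩)
    · exact hx.2.subset fun z hz => hr.trans hz
  refine ⟨F ∪ hH.toFinset, Finset.subset_union_left, ?_, fun x hx => ?_⟩
  · rintro x ⟨hx, a, ha⟩
    simp only [Finset.mem_coe, Finset.mem_union, Set.Finite.mem_toFinset, not_or] at hx ha
    rcases hx with hx | hx
    · exact ⟨hx, a, ha.1⟩
    · exact absurd ⟨ha.1, hx.2.subset fun z hz => Reach.move x z a ha.1 hz⟩ ha.2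
  · simp only [Finset.mem_union, Set.Finite.mem_toFinset, not_or] at hx
    have hinf : ¬{y | Reach φ (F : Set X) x y}.Finite := fun h => hx.2 ⟨hx.1, h⟩
    refine Set.Infinite.mono (fun y hy => ?_) hinf
    suffices K : ∀ x y, Reach φ (F : Set X) x y → x ∉ H → x ∉ F →
        Reach φ (↑(F ∪ hH.toFinset)) x y from K x y hy hx.2 hx.1
    intro x y hy
    induction hy with
    | refl => intros; exact Reach.refl _
    | move x y a ha _ ih =>
      intro hxH hxF
      have haH : letter φ a • x ∉ H := fun h' =>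
        hxH ⟨hxF, h'.2.subset fun z hz =>
          (Reach.symm (Reach.move x _ a ha (Reach.refl _)) hxF).trans hz⟩
      refine Reach.move x y a ?_ (ih haH ha)
      simp only [Finset.coe_union, Set.mem_union, Finset.mem_coe, Set.Finite.mem_toFinset,
        not_or]
      exact ⟨ha, haH⟩

end Vale.Agent.P192
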