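import Vale.Agent.P192.Cover

/-!
Thin Schreier graphs of finitely presented groups without virtual maps onto the integers.
-/

namespace Vale.Agent.P192

open Set Vale.Agent.P196

universe v w

variable {G : Type v} [Group G]

/-- A torsion group has no nontrivial homomorphism into the integers from any subgroup. -/
lemma torsion_no_hom_int (ht : ∀ g : G, IsOfFinOrder g) (N : Subgroup G)
    (χ : N →* Multiplicative ℤ) : χ = 1 := by
  ext g
  obtain ⟨k, hk, hk1⟩ := isOfFinOrder_iff_pow_eq_one.1 (ht g)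
  have h1 : g ^ k = 1 := Subtype.ext (by simpa using hk1)
  have h2 := congrArg (fun z => Multiplicative.toAdd (χ z)) h1
  simp only [map_pow, map_one, toAdd_pow, toAdd_one, nsmul_eq_mul, mul_eq_zero] at h2
  rcases h2 with h2 | h2
  · simp only [Nat.cast_eq_zero] at h2
    omega
  · rw [MonoidHom.one_apply]
    exact h2

/-- Linear balls give an exhaustion with bounded boundaries. -/
lemma thin_of_linear {X : Type w} [MulAction G X] [MulAction.IsPretransitive G X]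
    (S : Finset G) (hS : Subgroup.closure (S : Set G) = ⊤) (x₀ : X) (c : ℕ)
    (ball : ℕ → Finset X) (h₀ : x₀ ∈ ball 0)
    (hstep : ∀ k, ∀ x ∈ ball k, x ∈ ball (k + 1) ∧
      ∀ s ∈ S, s • x ∈ ball (k + 1) ∧ s⁻¹ • x ∈ ball (k + 1))
    (hlin : ∀ N, ∃ k, N ≤ k ∧ (ball k).card ≤ c * k) (A : Finset X) :
    ∃ F : Finset X, A ⊆ F ∧
      {x ∈ (F : Set X) | ∃ s ∈ S, s • x ∉ F ∨ s⁻¹ • x ∉ F}.ncard ≤ 2 * c := by
  classical
  have mono : ∀ k m, k ≤ m → ball k ⊆ ball m := by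
    intro k m hkm
    induction hkm with
    | refl => exact Finset.Subset.refl _
    | step _ ih => exact fun x hx => (hstep _ x (ih hx)).1
  have reach : ∀ g : G, ∃ k, g • x₀ ∈ ball k := by
    intro g
    suffices H : ∀ g : G, ∀ x, (∃ k, x ∈ ball k) →
        (∃ k, g • x ∈ ball k) ∧ (∃ k, g⁻¹ • x ∈ ball k) from (H g x₀ ⟨0, h₀⟩).1
    intro g
    have hg : g ∈ Subgroup.closure (S : Set G) := hS ▸ Subgroup.mem_top g
    induction hg using Subgroup.closure_induction with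
    | mem s hs =>
      rintro x ⟨k, hk⟩
      exact ⟨⟨k + 1, ((hstep k x hk).2 s hs).1⟩, ⟨k + 1, ((hstep k x hk).2 s hs).2⟩⟩
    | one => intro x hx; simpa using hx
    | mul a b _ _ ha hb =>
      intro x hx
      refine ⟨?_, ?_⟩
      · rw [mul_smul]; exact (ha _ (hb x hx).1).1
      · rw [mul_inv_rev, mul_smul]; exact (hb _ (ha x hx).2).2
    | inv a _ ha =>
      intro x hx
      exact ⟨(ha x hx).2, by rw [inv_inv]; exact (ha x hx).1⟩
  have reach' : ∀ x : X, ∃ k, x ∈ ball k := fun x => by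
    obtain ⟨g, rfl⟩ := MulAction.exists_smul_eq G x₀ x
    exact reach g
  choose rad hrad using reach'
  let j₀ := A.sup rad
  have hA : A ⊆ ball j₀ := fun x hx => mono _ _ (Finset.le_sup hx) (hrad x)
  obtain ⟨k, hk, hcard⟩ := hlin (2 * j₀ + 2)
  by_contra hno
  push Not at hno
  have grow : ∀ i, (2 * c + 1) * i ≤ (ball (j₀ + i)).card := by
    intro i
    induction i with
    | zero => simp
    | succ i ih =>
      have hb := hno (ball (j₀ + i + 1)) (hA.trans (mono _ _ (by omega)))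
      let Sph := ball (j₀ + i + 1) \ ball (j₀ + i)
      have hsph : 2 * c < Sph.card := by
        refine hb.trans_le ?_
        rw [← Set.ncard_coe_finset]
        refine Set.ncard_le_ncard ?_ (Finset.finite_toSet _)
        rintro x ⟨hx, s, hs, hout⟩
        refine Finset.mem_coe.2 (Finset.mem_sdiff.2 ⟨hx, fun hx' => ?_⟩)
        rcases hout with h | h
        · exact h ((hstep _ x hx').2 s hs).1
        · exact h ((hstep _ x hx').2 s hs).2
      have hcs : Sph.card + (ball (j₀ + i)).card = (ball (j₀ + i + 1)).card :=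
        Finset.card_sdiff_add_card_eq_card (mono _ _ (by omega))
      rw [Nat.mul_succ]
      rw [← Nat.add_assoc j₀ i 1]
      omega
  have := grow (k - j₀)
  rw [show j₀ + (k - j₀) = k by omega] at this
  have h2 : c * k + 1 ≤ (2 * c + 1) * (k - j₀) := by
    have h3 : k + 1 ≤ 2 * (k - j₀) := by omega
    have h4 : c * (k + 1) ≤ c * (2 * (k - j₀)) := Nat.mul_le_mul_left c h3
    have h5 : 1 ≤ k - j₀ := by omega
    calc c * k + 1 ≤ c * (k + 1) + 1 :=
          Nat.add_le_add_right (Nat.mul_le_mul_left c (Nat.le_succ k)) 1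
      _ ≤ c * (2 * (k - j₀)) + (k - j₀) := by omega
      _ = (2 * c + 1) * (k - j₀) := by ring
  omega

variable [Group.IsFinitelyPresented G]
  (hv : ∀ N : Subgroup G, N.FiniteIndex → ∀ χ : N →* Multiplicative ℤ, χ = 1)

include hv in
/-- Every transitive action with thin Schreier graph is finite. -/
theorem finite_of_thin {X : Type w} [MulAction G X] [MulAction.IsPretransitive G X]
    (S : Finset G) (hS : Subgroup.closure (S : Set G) = ⊤) (b : ℕ)
    (hex : ∀ A : Finset X, ∃ F : Finset X, A ⊆ F ∧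
      {x ∈ (F : Set X) | ∃ s ∈ S, s • x ∉ F ∨ s⁻¹ • x ∉ F}.ncard ≤ b) : Finite X := by
  classical
  by_contra hfX
  have : Infinite X := not_finite_iff_infinite.1 hfX
  obtain ⟨n, φ, hφ, R, hR, hker⟩ := Group.IsFinitelyPresented.out (G := G)
  let r : ℕ := 2 + hR.toFinset.sup fun x => x.toWord.length
  let D : Finset G := ((List.finite_length_le (Fin n × Bool) r).image
    fun w => φ (FreeGroup.mk w)).toFinset
  have hD : ∀ w : List (Fin n × Bool), w.length ≤ r → φ (FreeGroup.mk w) ∈ D := fun w hw => by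
    simp only [D, Set.Finite.mem_toFinset]
    exact ⟨w, hw, rfl⟩
  let T : Finset G := Finset.univ.image fun a : Fin n × Bool => letter φ a
  have hT : Subgroup.closure (T : Set G) = ⊤ := by
    refine top_le_iff.1 ?_
    rw [← MonoidHom.range_eq_top.2 hφ, MonoidHom.range_eq_map, ← FreeGroup.closure_range_of (Fin n),
      MonoidHom.map_closure, ← Set.range_comp]
    refine Subgroup.closure_mono ?_
    rintro _ ⟨i, rfl⟩
    exact Finset.mem_coe.2 (Finset.mem_image.2 ⟨(i, true), Finset.mem_univ _, rfl⟩)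
  obtain ⟨M₁, hM₁⟩ := collar_bounded (X := X) S hS T b
  obtain ⟨M, hM⟩ := collar_bounded (X := X) T hT D M₁
  obtain ⟨x₁⟩ : Nonempty X := inferInstance
  have hgood : ∀ A : Finset X, ∃ (F C : Finset X) (e : ↥C → Fin M),
      A ⊆ F ∧ (C : Set X) = collar D (F : Set X) ∧ Function.Injective e ∧
        ∀ x ∉ F, {y | Reach φ (F : Set X) x y}.Infinite := by
    intro A
    obtain ⟨F₁, hAF, hF₁⟩ := hex (insert x₁ A)
    obtain ⟨C₁, hC₁, hC₁F⟩ := hM₁ F₁ hF₁
    obtain ⟨F, hFF, hbd, hesc⟩ := fill hφ F₁ ⟨x₁, hAF (Finset.mem_insert_self _ _)⟩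
    have hb : {x ∈ (F : Set X) | ∃ s ∈ T, s • x ∉ F ∨ s⁻¹ • x ∉ F}.ncard ≤ M₁ := by
      refine le_trans ?_ hC₁
      rw [← Set.ncard_coe_finset C₁, hC₁F]
      refine Set.ncard_le_ncard ?_ (hC₁F ▸ C₁.finite_toSet)
      rintro x ⟨hx, s, hs, hout⟩
      obtain ⟨a, -, rfl⟩ := Finset.mem_image.1 hs
      have hx' : x ∈ {x ∈ (F : Set X) | ∃ a, letter φ a • x ∉ F} := by
        rcases hout with h | h
        · exact ⟨hx, a, h⟩
        · exact ⟨hx, (a.1, !a.2), by rwa [letter_flip]⟩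
      obtain ⟨hx₁, a', ha'⟩ := hbd hx'
      exact ⟨letter φ a', Finset.mem_image_of_mem _ (Finset.mem_univ _),
        fun hh => ha' (hh.2 hx₁)⟩
    obtain ⟨C, hC, hCF⟩ := hM F hb
    exact ⟨F, C, fun x => Fin.castLE hC (C.equivFin x),
      ((Finset.subset_insert _ _).trans hAF).trans hFF, hCF,
      (Fin.castLE_injective hC).comp C.equivFin.injective, hesc⟩
  choose F C e hAF hCF he hesc using hgood
  let ty : Finset X → Finset (Fin M) × Finset (Fin M) × Finset (Fin M × Fin M × (Fin n × Bool)) :=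
    fun A => ((C A).attach.image (e A),
      ((C A).attach.filter fun x : ↥(C A) => (x : X) ∈ F A).image (e A),
      ((((C A).attach ×ˢ (C A).attach) ×ˢ (Finset.univ : Finset (Fin n × Bool))).filter
        fun q => letter φ q.2 • (q.1.1 : X) = q.1.2).image fun q => (e A q.1.1, e A q.1.2, q.2))
  obtain ⟨t, ht⟩ : ∃ t, ∀ A : Finset X, ∃ B, A ⊆ B ∧ ty B = t := by
    by_contra hno
    push Not at hno
    choose bad hbad using hno
    exact hbad (ty (Finset.univ.biUnion bad)) (Finset.univ.biUnion bad)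
      (Finset.subset_biUnion_of_mem bad (Finset.mem_univ _)) rfl
  obtain ⟨A₀, -, hA₀⟩ := ht ∅
  obtain ⟨y, hy⟩ := Infinite.exists_notMem_finset (F A₀)
  let T₁ : Finset X := insert y (F A₀ ∪ C A₀)
  obtain ⟨A₁, hTA, hA₁⟩ := ht (T₁ ∪ (D ×ˢ T₁).image fun q => q.1 • q.2)
  have hF₁ : ∀ x ∈ T₁, x ∈ F A₁ := fun x hx => hAF A₁ (hTA (Finset.mem_union_left _ hx))
  have hF₁' : ∀ d ∈ D, ∀ x ∈ T₁, d • x ∈ F A₁ := fun d hd x hx => hAF A₁
    (hTA (Finset.mem_union_right _
      (Finset.mem_image.2 ⟨(d, x), Finset.mem_product.2 ⟨hd, hx⟩, rfl⟩)))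
  have transfer : ∀ A B, ty A = ty B → ∃ u : X → X, ∀ z (hz : z ∈ C A), ∃ hu : u z ∈ C B,
      e B ⟨u z, hu⟩ = e A ⟨z, hz⟩ ∧ (u z ∈ F B ↔ z ∈ F A) ∧
        ∀ a, letter φ a • z ∈ C A → letter φ a • u z = u (letter φ a • z) := by
    intro A B hAB
    obtain ⟨h₁, h₂, h₃⟩ :
        (ty A).1 = (ty B).1 ∧ (ty A).2.1 = (ty B).2.1 ∧ (ty A).2.2 = (ty B).2.2 := by
      rw [hAB]; exact ⟨rfl, rfl, rfl⟩
    simp only [ty] at h₁ h₂ h₃
    have hpick : ∀ z, ∃ z', ∀ hz : z ∈ C A, ∃ hz' : z' ∈ C B, e B ⟨z', hz'⟩ = e A ⟨z, hz⟩ := by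
      intro z
      by_cases hz : z ∈ C A
      · have hm : e A ⟨z, hz⟩ ∈ (C B).attach.image (e B) :=
          h₁ ▸ Finset.mem_image_of_mem _ (Finset.mem_attach _ _)
        obtain ⟨⟨z', hz'⟩, -, heq⟩ := Finset.mem_image.1 hm
        exact ⟨z', fun _ => ⟨hz', heq⟩⟩
      · exact ⟨z, fun h => absurd h hz⟩
    choose u hu using hpick
    refine ⟨u, fun z hz => ?_⟩
    obtain ⟨huz, heq⟩ := hu z hz
    refine ⟨huz, heq, ⟨fun h => ?_, fun h => ?_⟩, fun a ha => ?_⟩
    · have hm : e B ⟨u z, huz⟩ ∈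
          ((C A).attach.filter fun x : ↥(C A) => (x : X) ∈ F A).image (e A) :=
        h₂ ▸ Finset.mem_image_of_mem _ (Finset.mem_filter.2 ⟨Finset.mem_attach _ _, h⟩)
      obtain ⟨p, hp, hpe⟩ := Finset.mem_image.1 hm
      have := he A (hpe.trans heq)
      rw [this] at hp
      exact (Finset.mem_filter.1 hp).2
    · have hm : e A ⟨z, hz⟩ ∈
          ((C B).attach.filter fun x : ↥(C B) => (x : X) ∈ F B).image (e B) :=
        h₂ ▸ Finset.mem_image_of_mem _ (Finset.mem_filter.2 ⟨Finset.mem_attach _ _, h⟩)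
      obtain ⟨p, hp, hpe⟩ := Finset.mem_image.1 hm
      have := he B (hpe.trans heq.symm)
      rw [this] at hp
      exact (Finset.mem_filter.1 hp).2
    · obtain ⟨hw, hweq⟩ := hu (letter φ a • z) ha
      have hmem : (e A ⟨z, hz⟩, e A ⟨_, ha⟩, a) ∈ ((((C A).attach ×ˢ (C A).attach) ×ˢ
          (Finset.univ : Finset (Fin n × Bool))).filter
            fun q => letter φ q.2 • (q.1.1 : X) = q.1.2).image
              fun q => (e A q.1.1, e A q.1.2, q.2) :=
        Finset.mem_image.2 ⟨((⟨z, hz⟩, ⟨_, ha⟩), a), Finset.mem_filter.2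
          ⟨Finset.mem_product.2 ⟨Finset.mem_product.2
            ⟨Finset.mem_attach _ _, Finset.mem_attach _ _⟩, Finset.mem_univ _⟩, rfl⟩, rfl⟩
      rw [h₃, Finset.mem_image] at hmem
      obtain ⟨⟨⟨p, q⟩, a'⟩, hf, heqs⟩ := hmem
      simp only [Prod.mk.injEq] at heqs
      obtain ⟨hp, hq', rfl⟩ := heqs
      have e₁ := he B (hp.trans heq.symm)
      have e₂ := he B (hq'.trans hweq.symm)
      rw [e₁, e₂] at hf
      exact (Finset.mem_filter.1 hf).2
  have hty : ty A₀ = ty A₁ := hA₀.trans hA₁.symm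
  obtain ⟨u, hu⟩ := transfer A₀ A₁ hty
  obtain ⟨v, hv'⟩ := transfer A₁ A₀ hty.symm
  have mem₀ : ∀ {z}, z ∈ collar D (F A₀ : Set X) → z ∈ C A₀ := fun {z} h => by
    rwa [← hCF, Finset.mem_coe] at h
  have mem₁ : ∀ {z}, z ∈ collar D (F A₁ : Set X) → z ∈ C A₁ := fun {z} h => by
    rwa [← hCF, Finset.mem_coe] at h
  have hglue : Gluing φ D (F A₀ : Set X) (F A₁ : Set X) u v := by
    constructor
    · exact fun z hz => hF₁ z (Finset.mem_insert_of_mem (Finset.mem_union_left _ hz))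
    · exact fun z hz => hF₁ z (Finset.mem_insert_of_mem (Finset.mem_union_right _ (mem₀ hz)))
    · rintro z ⟨d, hd, hd'⟩ hz
      have hzT : z ∈ T₁ := Finset.mem_insert_of_mem (Finset.mem_union_left _ hz)
      exact hd' (iff_of_true (hF₁' d hd z hzT) (hF₁ z hzT))
    · intro z hz
      obtain ⟨huz, heq, hiff, -⟩ := hu z (mem₀ hz)
      refine ⟨by rwa [← hCF, Finset.mem_coe], hiff, ?_⟩
      obtain ⟨hvz, heq', -, -⟩ := hv' (u z) huz
      exact congrArg Subtype.val (he A₀ (heq'.trans heq))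
    · intro z hz
      obtain ⟨hvz, heq, hiff, -⟩ := hv' z (mem₁ hz)
      refine ⟨by rwa [← hCF, Finset.mem_coe], hiff, ?_⟩
      obtain ⟨huz, heq', -, -⟩ := hu (v z) hvz
      exact congrArg Subtype.val (he A₁ (heq'.trans heq))
    · intro a z hz haz
      obtain ⟨-, -, -, hequiv⟩ := hu z (mem₀ hz)
      exact hequiv a (mem₀ haz)
    · intro a z hz haz
      obtain ⟨-, -, -, hequiv⟩ := hv' z (mem₁ hz)
      exact hequiv a (mem₁ haz)
  obtain ⟨Φ, hΦ, hshift, hup⟩ := exists_chain hglue (r := r) (by omega) hD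
  have hle : φ.ker ≤ Φ.ker := by
    rw [← hker]
    refine Subgroup.normalClosure_le_normal fun x hx => hΦ x ?_ ?_
    · have : x.toWord.length ≤ hR.toFinset.sup fun x => x.toWord.length :=
        Finset.le_sup (f := fun x : FreeGroup (Fin n) => x.toWord.length) (hR.mem_toFinset.2 hx)
      omega
    · rw [← MonoidHom.mem_ker, ← hker]
      exact Subgroup.subset_normalClosure hx
  let Y := ↥((F A₁ : Set X) \ (F A₀ : Set X))
  let Ψ : G →* Equiv.Perm (Y × ℤ) := φ.liftOfSurjective hφ ⟨Φ, hle⟩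
  have hΨ : ∀ x, Ψ (φ x) = Φ x := fun x =>
    MonoidHom.liftOfRightInverse_comp_apply φ _ _ _ x
  have hsh : ∀ g p l, Ψ g (p, l) = ((Ψ g (p, 0)).1, (Ψ g (p, 0)).2 + l) := by
    intro g p l
    obtain ⟨x, rfl⟩ := hφ g
    rw [hΨ]
    exact hshift x p l
  have hcomp : ∀ g h p, (Ψ (g * h) (p, 0)).1 = (Ψ g ((Ψ h (p, 0)).1, 0)).1 ∧
      (Ψ (g * h) (p, 0)).2 = (Ψ g ((Ψ h (p, 0)).1, 0)).2 + (Ψ h (p, 0)).2 := by
    intro g h p
    have e1 : Ψ (g * h) (p, 0) = Ψ g ((Ψ h (p, 0)).1, (Ψ h (p, 0)).2) := by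
      rw [map_mul, Equiv.Perm.mul_apply]
    rw [hsh g (Ψ h (p, 0)).1 (Ψ h (p, 0)).2] at e1
    rw [e1]
    exact ⟨rfl, rfl⟩
  have hone' : ∀ p, Ψ 1 (p, 0) = (p, 0) := fun p => by simp
  let π : G →* Equiv.Perm Y := MonoidHom.mk'
    (fun g => ⟨fun p => (Ψ g (p, 0)).1, fun p => (Ψ g⁻¹ (p, 0)).1,
      fun p => by
        show (Ψ g⁻¹ ((Ψ g (p, 0)).1, 0)).1 = p
        rw [← (hcomp _ _ p).1, inv_mul_cancel, hone'],
      fun p => by
        show (Ψ g ((Ψ g⁻¹ (p, 0)).1, 0)).1 = p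
        rw [← (hcomp _ _ p).1, mul_inv_cancel, hone']⟩)
    (fun g h => Equiv.ext fun p => (hcomp g h p).1)
  have hY : Finite Y := ((F A₁).finite_toSet.sdiff).to_subtype
  have hfi : π.ker.FiniteIndex := by
    rw [Subgroup.finiteIndex_iff, Subgroup.index_ker]
    exact Nat.card_ne_zero.2 ⟨inferInstance, inferInstance⟩
  have hfix : ∀ g ∈ π.ker, ∀ p, Ψ g (p, 0) = (p, 0) := by
    intro g hg p
    have hp : ∀ k : π.ker, ∀ p, (Ψ k (p, 0)).1 = p := fun k p =>
      Equiv.Perm.ext_iff.1 (MonoidHom.mem_ker.1 k.2) p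
    let χ : π.ker →* Multiplicative ℤ := MonoidHom.mk'
      (fun k => Multiplicative.ofAdd (Ψ k (p, 0)).2)
      (fun k k' => by
        rw [← ofAdd_add, Subgroup.coe_mul, (hcomp _ _ p).2, hp k' p])
    have h1 := DFunLike.congr_fun (hv π.ker hfi χ) ⟨g, hg⟩
    exact Prod.ext (hp ⟨g, hg⟩ p) (by simpa [χ] using h1)
  have hclimb : ∀ k : ℕ, ∀ p : Y, ∃ g, (Ψ g (p, 0)).2 = k := by
    intro k
    induction k with
    | zero => exact fun p => ⟨1, by rw [hone']; rfl⟩
    | succ k ih =>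
      intro p
      obtain ⟨g, hg⟩ := ih p
      set q := (Ψ g (p, 0)).1
      have hqF : (q : X) ∉ F A₀ := q.2.2
      obtain ⟨z, hz, hz₁⟩ := (hesc A₀ _ hqF).exists_notMem_finset (F A₁)
      obtain ⟨x, hx⟩ := hup q 0 z hz hz₁
      refine ⟨φ x * g, ?_⟩
      rw [(hcomp _ _ p).2, hΨ, hx, hg]
      push_cast
      ring
  let p₀ : Y := ⟨y, hF₁ y (Finset.mem_insert_self _ _), hy⟩
  have hinf : (Set.range fun g => (Ψ g (p₀, 0)).2).Infinite := by
    refine Set.infinite_of_injective_forall_mem Nat.cast_injective fun k => ?_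
    obtain ⟨g, hg⟩ := hclimb k p₀
    exact ⟨g, hg⟩
  refine hinf ?_
  have := hfi
  refine (Set.finite_range fun q : G ⧸ π.ker => (Ψ q.out (p₀, 0)).2).subset ?_
  rintro _ ⟨g, rfl⟩
  refine ⟨(g : G ⧸ π.ker), ?_⟩
  show (Ψ (g : G ⧸ π.ker).out (p₀, 0)).2 = (Ψ g (p₀, 0)).2
  obtain ⟨k, hk⟩ := QuotientGroup.mk_out_eq_mul π.ker g
  rw [hk, map_mul, Equiv.Perm.mul_apply, hfix k k.2]

end Vale.Agent.P192
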